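import Vale.Agent.P266.Main

/-!
A normal abelian Galois cover of affine space whose module of vector fields is projective is
smooth.
-/

namespace Vale.Agent.Results.P266.AbelianCoversSmooth

open MvPolynomial Vale.Agent.P266

theorem result {A : Type*} [CommRing A] [IsDomain A] [IsIntegrallyClosed A] [Algebra ℂ A]
    [Module.Projective A (Derivation ℂ A A)]
    {n : ℕ} (x : Fin n → A) (hx : AlgebraicIndependent ℂ x)
    (G : Subgroup (A ≃ₐ[ℂ] A)) [Finite G] (hcomm : ∀ g h : G, g * h = h * g)
    (hfix : ∀ a : A, (∀ g ∈ G, g a = a) ↔ a ∈ Algebra.adjoin ℂ (Set.range x)) :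
    ∀ (m : Ideal A) [m.IsMaximal], IsRegularLocalRing (Localization.AtPrime m) := by
  classical
  intro m hm
  let _ : CommGroup G := { (inferInstance : Group G) with mul_comm := hcomm }
  let _ : Fintype G := Fintype.ofFinite G
  algebraize [(MvPolynomial.aeval x : Pol n →ₐ[ℂ] A).toRingHom]
  have hup : ∀ p : Pol n, algebraMap (Pol n) A p = aeval x p := fun p => rfl
  have : IsScalarTower ℂ (Pol n) A :=
    IsScalarTower.of_algebraMap_eq fun z => ((aeval x).commutes z).symm
  have : FaithfulSMul (Pol n) A := (faithfulSMul_iff_algebraMap_injective _ _).2 hx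
  have hinv : ∀ (g : G) (p : Pol n), g • algebraMap (Pol n) A p = algebraMap (Pol n) A p := by
    intro g p
    refine (hfix _).2 ?_ g.1 g.2
    rw [Algebra.adjoin_range_eq_range_aeval, hup]
    exact ⟨p, rfl⟩
  have : SMulCommClass G ℂ A := ⟨fun g z a => map_smul g.1 z a⟩
  have : SMulCommClass G (Pol n) A := ⟨fun g p a => by
    rw [Algebra.smul_def, Algebra.smul_def, smul_mul', hinv]⟩
  have : Algebra.IsInvariant (Pol n) A G := ⟨fun a ha => by
    have h := (hfix a).1 fun g hg => ha ⟨g, hg⟩
    rw [Algebra.adjoin_range_eq_range_aeval] at h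
    obtain ⟨p, hp⟩ := h
    exact ⟨p, hp⟩⟩
  have : Module.Finite (Pol n) A := Module.Finite.of_basis (genBasis (n := n) (A := A) (G := G))
  have : Algebra.FiniteType ℂ A :=
    Algebra.FiniteType.trans (S := Pol n) inferInstance inferInstance
  let _ : Field (A ⧸ m) := Ideal.Quotient.field m
  have : Module.Finite ℂ (A ⧸ m) := finite_of_finite_type_of_isJacobsonRing ℂ (A ⧸ m)
  have hres : ∀ a : A, ∃ z : ℂ, a - algebraMap ℂ A z ∈ m := by
    intro a
    obtain ⟨z, hz⟩ :=
      (IsAlgClosed.algebraMap_bijective_of_isIntegral (k := ℂ) (K := A ⧸ m)).2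
        (Ideal.Quotient.mk m a)
    exact ⟨z, Ideal.Quotient.eq.1 hz.symm⟩
  choose c hc using fun k => hres (x k)
  refine regular_at (n := n) G m c (fun p => ?_) hres
  have key : (Ideal.Quotient.mk m).comp (algebraMap (Pol n) A)
      = (algebraMap ℂ (A ⧸ m)).comp (eval c) := by
    refine MvPolynomial.ringHom_ext (fun z => ?_) (fun k => ?_)
    · change Ideal.Quotient.mk m (aeval x (C z)) = algebraMap ℂ (A ⧸ m) (eval c (C z))
      rw [aeval_C, eval_C]
      rfl
    · simp only [RingHom.comp_apply, eval_X, hup, aeval_X]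
      exact Ideal.Quotient.eq.2 (hc k)
  rw [← Ideal.Quotient.eq_zero_iff_mem,
    show Ideal.Quotient.mk m (up A p) = algebraMap ℂ (A ⧸ m) (eval c p) from
      DFunLike.congr_fun key p,
    map_eq_zero_iff _ (algebraMap ℂ (A ⧸ m)).injective]

end Vale.Agent.Results.P266.AbelianCoversSmooth
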