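import Mathlib
import Vale.Agent.P266.Trace.Main

/-!
Trace criterion for the Lipman-Zariski problem: over a finite map to affine space, the determinant
of local generators of the vector fields avoids the parameter ideal; hence if a parameter ideal has
reduction number smaller than the dimension at a point, some vector field does not vanish there.
-/

namespace Vale.Agent.Results.P266.TraceCriterion

open MvPolynomial Vale.Agent.P266

theorem result {A : Type*} [CommRing A] [IsDomain A] [IsIntegrallyClosed A] [Algebra ℂ A]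
    {n : ℕ} (x : Fin n → A) (hx : AlgebraicIndependent ℂ x)
    (hfin : (aeval x : MvPolynomial (Fin n) ℂ →ₐ[ℂ] A).toRingHom.Finite)
    (m : Ideal A) [m.IsMaximal] (hm : ∀ j, x j ∈ m) :
    (∀ v : Fin n → Derivation ℂ A A,
      (∃ s ∉ m, ∀ D : Derivation ℂ A A, s • D ∈ Submodule.span A (Set.range v)) →
        ∀ t ∉ m, t * Matrix.det (Matrix.of fun i j => v i (x j)) ∉ Ideal.span (Set.range x)) ∧
    (Module.Projective A (Derivation ℂ A A) →
      (∀ f ∈ m ^ n, ∃ t ∉ m, t * f ∈ Ideal.span (Set.range x)) →
        ∃ (D : Derivation ℂ A A) (a : A), D a ∉ m) ∧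
    (Module.Projective A (Derivation ℂ A A) → (∀ (D : Derivation ℂ A A) (a : A), D a ∈ m) →
      ∀ D : Derivation ℂ A A, (∀ j, ∃ t ∉ m, t * D (x j) ∈ Ideal.span (Set.range x)) →
        ∀ a, D a ∈ m ^ 2) := by
  classical
  algebraize [(aeval x : MvPolynomial (Fin n) ℂ →ₐ[ℂ] A).toRingHom]
  have : IsScalarTower ℂ (MvPolynomial (Fin n) ℂ) A :=
    IsScalarTower.of_algebraMap_eq fun z => ((aeval x).commutes z).symm
  have : FaithfulSMul (MvPolynomial (Fin n) ℂ) A :=
    (faithfulSMul_iff_algebraMap_injective _ _).2 hx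
  have hxc : Trace.xc A = x := funext fun j => aeval_X x j
  have h1 : ∀ v : Fin n → Derivation ℂ A A,
      (∃ s ∉ m, ∀ D : Derivation ℂ A A, s • D ∈ Submodule.span A (Set.range v)) →
        ∀ t ∉ m, t * Matrix.det (Matrix.of fun i j => v i (x j)) ∉ Ideal.span (Set.range x) := by
    rintro v ⟨s, hs, hspan⟩ t ht
    have := Trace.criterion (n := n) m (fun j => by rw [hxc]; exact hm j) v hs (fun D => by
      obtain ⟨c, hc⟩ := Submodule.mem_span_range_iff_exists_fun A |>.1 (hspan D)
      refine ⟨c, fun a => ?_⟩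
      have h : (s • D) a = (∑ i, c i • v i) a := by rw [hc]
      rw [Derivation.smul_apply, smul_eq_mul,
        show (∑ i, c i • v i) a = ∑ i, (c i • v i) a from
          map_sum ({ toFun := fun D : Derivation ℂ A A => D a
                     map_zero' := rfl
                     map_add' := fun _ _ => rfl } : Derivation ℂ A A →+ A) _ _] at h
      simpa using h) ht
    rwa [hxc] at this
  refine ⟨h1, fun hproj hred => ?_, fun hproj hvan D hD a => ?_⟩
  swap
  · obtain ⟨v, s, hs, hspan⟩ := Trace.exists_frame (n := n) m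
    have hcoef : ∀ D' : Derivation ℂ A A, ∃ c : Fin n → A, ∀ b, s * D' b = ∑ i, c i * v i b := by
      intro D'
      obtain ⟨c, hc⟩ := Submodule.mem_span_range_iff_exists_fun A |>.1 (hspan D')
      refine ⟨c, fun b => ?_⟩
      let evb : Derivation ℂ A A →+ A :=
        { toFun := fun E => E b, map_zero' := rfl, map_add' := fun _ _ => rfl }
      have h : evb (s • D') = evb (∑ i, c i • v i) := by rw [hc]
      rw [map_sum] at h
      exact h
    choose t ht htD using hD
    have hT : ∏ j, t j ∉ m := fun h => by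
      obtain ⟨j, -, hj⟩ := Ideal.IsPrime.prod_mem_iff.1 h
      exact ht j hj
    obtain ⟨c, hc⟩ := hcoef D
    have hcm : ∀ i, c i ∈ m := Trace.coeff_mem (n := n) m (fun j => by rw [hxc]; exact hm j) v hs
      hcoef D hT (fun j => by
        rw [hxc, ← Finset.prod_erase_mul _ t (Finset.mem_univ j), mul_assoc]
        exact Ideal.mul_mem_left _ _ (htD j)) hc
    have hmem : s * D a ∈ m ^ 2 := by
      rw [hc, pow_two]
      exact Ideal.sum_mem _ fun i _ => Ideal.mul_mem_mul (hcm i) (hvan _ _)
    obtain ⟨u, k, hk, huk⟩ := (inferInstance : m.IsMaximal).exists_inv hs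
    have hda : D a = u * (s * D a) + k * D a := by rw [← mul_assoc, ← add_mul, huk, one_mul]
    rw [hda, pow_two]
    refine Ideal.add_mem _ (Ideal.mul_mem_left _ _ ?_) (Ideal.mul_mem_mul hk (hvan D a))
    rwa [← pow_two]
  by_contra! hall
  obtain ⟨v, s, hs, hspan⟩ := Trace.exists_frame (n := n) m
  have hdet : Matrix.det (Matrix.of fun i j => v i (x j)) ∈ m ^ n := by
    rw [Matrix.det_apply]
    refine Ideal.sum_mem _ fun σ _ => Submodule.smul_of_tower_mem _ _ ?_
    have := Ideal.prod_mem_prod (s := (Finset.univ : Finset (Fin n))) (I := fun _ => m)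
      (x := fun i => v (σ i) (x i)) fun i _ => hall _ _
    simpa using this
  obtain ⟨t, ht, htf⟩ := hred _ hdet
  exact h1 v ⟨s, hs, hspan⟩ t ht htf

end Vale.Agent.Results.P266.TraceCriterion
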